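import Vale.Agent.P167.N.Kit
import Vale.Agent.P167.N.H542.Q.FamB
import Vale.Agent.P167.H872.Asm.Out
import Vale.Agent.P167.H872.Asm.IdN

/-!
# P167, `0 < q < 1`: the three families of a polygon and the remaining inputs
-/

set_option autoImplicit false

namespace Vale.Agent.P167.N.H872.Asm

open Vale.Agent.P167.H872.Asm Vale.Agent.P167.H872

open Filter Topology Vale.Agent.P167.FK Vale.Agent.P167.FKA

open Vale.Agent.P167.CA (Dat)

open Vale.Agent.P167.H825.Q (S2aQq Bc bdQ qS kS tN)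

open Vale.Agent.P167.H760.Q (NeuH)

open Vale.Agent.P167.QB (gB)

section

variable {θ : ℝ} (h0 : 0 < θ) (h1 : Ang θ) (S : Dat)

/-- The family of the boundary conditions `bc`. -/
noncomputable def fam (bc : Bc) (hbc : bc.In S.l) (L : Filter ℕ) (hL : L ≤ atTop)
    (hc : L.IsCountablyGenerated) : CAQ.Fam S :=
  Vale.Agent.P167.N.H542.Q.BD.famB (bdQ S θ (gB θ) bc hbc L hL hc) h0 h1 (hbe θ)

end

/-- **The remaining inputs.** -/
structure In2 (θ : ℝ) (h0 : 0 < θ) (h1 : Ang θ) : Prop where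
  /-- Block 2A. -/
  two : S2aQq θ (gB θ)
  /-- The local Neumann input. -/
  tw : ∀ (S : Dat) (bc : Bc) (hbc : bc.In S.l) (L : Filter ℕ) (hL : L ≤ atTop)
    (hc : L.IsCountablyGenerated), Gd S L → BcG S bc → ∀ f, S.FF f →
      NeuH S L fun n => (fam h0 h1 S bc hbc L hL hc).H n f

end Vale.Agent.P167.N.H872.Asm
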