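import Vale.Agent.P167.N.ID.Two
import Vale.Agent.P167.N.QL.Top

/-!
# P167, `0 < q < 1`: the inputs of the identification

`in2`: Block 2A (`two_all`) and the local Neumann input (`in_tw`).
-/

set_option autoImplicit false

namespace Vale.Agent.P167.N.H872.Asm

/-- **The inputs of the identification**, for every angle of the range `0 < q < 1`. -/
theorem in2 {θ : ℝ} (h1 : Ang θ) : In2 θ h1.pos h1 :=
  ⟨Vale.Agent.P167.N.ID.two_all h1.pos h1, Vale.Agent.P167.N.QL.in_tw h1.pos h1⟩

end Vale.Agent.P167.N.H872.Asm
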