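import Vale.Agent.P167.N.Kit
import Vale.Agent.P167.N.H542.Q.FamB
import Vale.Agent.P167.N.H760.Q.Bs7
import Vale.Agent.P167.H872.Asm.Core

/-!
# P167, `0 < q < 1`: `CORE` of the Dobrushin families
-/

set_option autoImplicit false

namespace Vale.Agent.P167.N.H872.Asm

open Vale.Agent.P167.H872.Asm Vale.Agent.P167.H872

open Filter Topology Vale.Agent.P167.FK Vale.Agent.P167.FKA

open Vale.Agent.P167.CA (Dat)

open Vale.Agent.P167.H542.Q (BD)

open Vale.Agent.P167.H760.Q (NeuH)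

variable {θ β : ℝ}

/-- `CORE` of a Dobrushin family. -/
theorem core_of (h0 : 0 < θ) (h1 : Ang θ) (hβ : Real.cos (θ / 2 + β) = Real.sin θ)
    (hR : RSW (2 * Real.cos θ)) {S : Dat} (X : BD S θ β)
    (hM : (Vale.Agent.P167.N.H542.Q.BD.famB X h0 h1 hβ).MOM)
    (hT : ∀ f, S.FF f → NeuH S X.L fun n => (Vale.Agent.P167.N.H542.Q.BD.famB X h0 h1 hβ).H n f)
    (hE : (Vale.Agent.P167.N.H542.Q.BD.famB X h0 h1 hβ).EQ) :
    (Vale.Agent.P167.N.H542.Q.BD.famB X h0 h1 hβ).CORE :=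
  Vale.Agent.P167.N.H760.Q.core_of' h0 h1 hβ X hR hM hT hE

end Vale.Agent.P167.N.H872.Asm
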