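import Vale.Agent.P167.N.KitQ
import Vale.Agent.P167.N.H167.Q.EqG
import Vale.Agent.P167.N.H411.Q.As2
import Vale.Agent.P167.N.H411.Q.NDzF
import Vale.Agent.P167.N.H436.ND.Nda8
import Vale.Agent.P167.N.H662.L.Asm2
import Vale.Agent.P167.N.H760.Q.Bs7
import Vale.Agent.P167.N.H872.Asm.Core
import Vale.Agent.P167.N.H872.Asm.Fam

/-!
# P167, `0 < q < 1`: the facts about the families of a Dobrushin polygon

`Dob3` collects what the identification and the bridge use about the free, the wired and the Dobrushin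
family of a lattice polygon whose junction is in the middle of a side in the direction `0`.
-/

set_option autoImplicit false

namespace Vale.Agent.P167.N.H872.Asm

open Vale.Agent.P167.H872.Asm Vale.Agent.P167.H872

open Filter Topology Vale.Agent.P167.FK Vale.Agent.P167.FKA

open Vale.Agent.P167.CA (Dat)

open Vale.Agent.P167.H825.Q (S2aQq Bc bdQ qS kS tN)

open Vale.Agent.P167.H760.Q (NeuH)

open Vale.Agent.P167.H411.B7 (Shp)

open Vale.Agent.P167.H411.Q (NDz NDa OutL GMarks QAny bpt nrm arcW arcF zN Lims IdLim rB)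

open Vale.Agent.P167.BVP (Flat)

open Vale.Agent.P167.QB (gB)

/-- **The facts about the families of a Dobrushin polygon**: `FD`, `FF`, `FW` are the Dobrushin, the
free and the wired family. -/
structure Dob3 (θ : ℝ) (S : Dat) (i : ℕ) (FD FF FW : CAQ.Fam S) : Prop where
  /-- the moments -/
  momD : FD.MOM
  /-- the moments -/
  momF : FF.MOM
  /-- the moments -/
  momW : FW.MOM
  /-- equicontinuity -/
  eqD : FD.EQ
  /-- equicontinuity -/
  eqF : FF.EQ
  /-- equicontinuity -/
  eqW : FW.EQ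
  /-- the main identity -/
  coreD : FD.CORE
  /-- the main identity -/
  coreF : FF.CORE
  /-- the main identity -/
  coreW : FW.CORE
  /-- the constants -/
  three : N.H411.Q.Fam3 θ FD FF FW
  /-- the limits on the wired arc -/
  limY : Lims FD FF (arcW S (i + S.tp))
  /-- the limits on the free arc -/
  limZ : Lims FD FW (arcF S (i + S.tp))
  /-- the window of the base point -/
  flat : Flat S.P S.bp (nrm S 0) (rB S i S.tp)
  /-- the charge at the junction -/
  nda : NDa θ FD FF (bpt S (i + S.tp)) (nrm S i)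

/-- **The facts hold** for every polygon in question. -/
theorem dob3_of {θ : ℝ} (h0 : 0 < θ) (h1 : Ang θ) (I : In2 θ h0 h1) (S : Dat) (i : ℕ)
    (hi : Bc.In S.l (.dob i S.tp)) (L : Filter ℕ) (hL : L ≤ atTop) (hc : L.IsCountablyGenerated)
    (hg : Gd S L) (htip : S.p (i + 1) = S.p i + (1, 0)) :
    Dob3 θ S i (fam h0 h1 S (.dob i S.tp) hi L hL hc) (fam h0 h1 S .free trivial L hL hc)
      (fam h0 h1 S .wired trivial L hL hc) := by
  have hi' := hi
  obtain ⟨i0, i1, t0, t1⟩ := hi'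
  have hR : RSW (2 * Real.cos θ) := h1.kit.rsw
  -- moments
  have mom : ∀ (bc : Bc) (hbc : bc.In S.l), (fam h0 h1 S bc hbc L hL hc).MOM := fun bc hbc =>
    N.H662.L.momF_bdQ I.two h0 h1 (hbe θ) S hbc hL hc
  have eqc : ∀ (bc : Bc) (hbc : bc.In S.l), (fam h0 h1 S bc hbc L hL hc).EQ := fun bc hbc =>
    N.H167.Q.bdQ_EQ h0 h1 (hbe θ) hbc hL hc
  -- core
  have core : ∀ (bc : Bc) (hbc : bc.In S.l), BcG S bc → (fam h0 h1 S bc hbc L hL hc).CORE :=
    fun bc hbc hb => core_of h0 h1 (hbe θ) hR _ (mom bc hbc) (I.tw S bc hbc L hL hc hg hb)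
      (eqc bc hbc)
  have hD : BcG S (.dob i S.tp) := ⟨rfl, htip⟩
  have tD := I.tw S (.dob i S.tp) hi L hL hc hg hD _ (ff_zero S)
  have tF := I.tw S .free trivial L hL hc hg trivial _ (ff_zero S)
  have tW := I.tw S .wired trivial L hL hc hg trivial _ (ff_zero S)
  have hb : ∀ᶠ n : ℕ in L, qS S n 0 = S.b n :=
    hL ((eventually_gt_atTop 0).mono fun _ hn => H825.Q.qS_zero S hn)
  have a0 : S.tp < (i : ℝ) + S.tp := by
    have : (0 : ℝ) < i := by exact_mod_cast i0
    linarith
  have a1 : (i : ℝ) + S.tp < S.l + S.tp := by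
    have : (i : ℝ) < S.l := by exact_mod_cast i1
    linarith
  have hF3 : N.H411.Q.Fam3 θ (fam h0 h1 S (.dob i S.tp) hi L hL hc)
      (fam h0 h1 S .free trivial L hL hc) (fam h0 h1 S .wired trivial L hL hc) :=
    ⟨h0, h1, rfl, rfl, rfl, rfl, rfl⟩
  have lY : Lims (fam h0 h1 S (.dob i S.tp) hi L hL hc) (fam h0 h1 S .free trivial L hL hc)
      (arcW S (i + S.tp)) := by
    refine N.H760.Q.lims_DF' h0 h1 (hbe θ) hR (bdQ S θ (gB θ) (.dob i S.tp) hi L hL hc)
      (bdQ S θ (gB θ) .free trivial L hL hc) rfl hb hb (Eventually.of_forall fun n => rfl)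
      (C₀ := 1) a0 a1 (Eventually.of_forall fun n => ?_) (mom _ _) (mom _ _) tD tF
    show ((i : ℝ) + S.tp) * n - 1 ≤ ⌊S.tp * n⌋₊ + ((kS S (.dob i S.tp) n : ℕ) : ℝ)
    rw [kS_dob]
    have := Nat.lt_floor_add_one (S.tp * (n : ℝ))
    push_cast
    linarith
  have lZ : Lims (fam h0 h1 S (.dob i S.tp) hi L hL hc)
      (fam h0 h1 S .wired trivial L hL hc) (arcF S (i + S.tp)) := by
    refine N.H760.Q.lims_DW' h0 h1 (hbe θ) hR (bdQ S θ (gB θ) (.dob i S.tp) hi L hL hc)
      (bdQ S θ (gB θ) .wired trivial L hL hc) rfl hb hb (Eventually.of_forall fun n => rfl)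
      (C₀ := 0) a0 (Eventually.of_forall fun n => ?_) (mom _ _) (mom _ _) tD tW
    show (⌊S.tp * n⌋₊ : ℝ) + ((kS S (.dob i S.tp) n : ℕ) : ℝ) ≤ ((i : ℝ) + S.tp) * n + 0
    rw [kS_dob]
    have := Nat.floor_le (a := S.tp * (n : ℝ)) (by have := S.tp0; positivity)
    push_cast
    linarith
  have hflat := H411.Q.flat_bpt S 0 S.tp0 S.tp1
  rw [Int.cast_zero, zero_add, H411.Q.bpt_bp] at hflat
  have hd := H411.Q.junction_ne S (i := i) (t := S.tp) (by exact_mod_cast a0) (by exact_mod_cast a1)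
  have hrp : Flat S.P S.bp (nrm S 0) (rB S i S.tp) :=
    H411.Q.flat_le hflat (lt_min hflat.pos hd) (min_le_left _ _)
  have hna : NDa θ (fam h0 h1 S (.dob i S.tp) hi L hL hc) (fam h0 h1 S .free trivial L hL hc)
      (bpt S (i + S.tp)) (nrm S i) := N.H436.ND.nda_fin h0 h1 (hbe θ) S hi trivial hL hc
  exact {
    momD := mom _ _
    momF := mom _ _
    momW := mom _ _
    eqD := eqc _ _
    eqF := eqc _ _
    eqW := eqc _ _
    coreD := core _ _ hD
    coreF := core _ _ trivial
    coreW := core _ _ trivial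
    three := hF3
    limY := lY
    limZ := lZ
    flat := hrp
    nda := hna }

end Vale.Agent.P167.N.H872.Asm
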